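import Vale.Agent.P300.H86.Spec

/-!
# P300 [CHOW][EXT]: pull back of a compactly supported ambient function to a chart
-/

open Complex Filter Set
open scoped Topology ContDiff

namespace Vale.Agent.P300.H510

open Vale.Agent.P300.H86 Vale.Agent.P300.H86.Aff

variable {n : ℕ}

/-- The inverse of a chart is continuous on the image, relatively to `Z`. -/
theorem continuousWithinAt_inv (S : Aff n) (i : S.ι) {u : W} (hu : u ∈ S.D i) :
    ContinuousWithinAt (Function.invFunOn (S.f i) (S.D i)) S.Z (S.f i u) := by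
  have hleft : ∀ u' ∈ S.D i, Function.invFunOn (S.f i) (S.D i) (S.f i u') = u' := fun u' hu' =>
    (S.inj i).leftInvOn_invFunOn hu'
  intro N hN
  rw [hleft u hu] at hN
  have h := S.openImg i u hu N hN
  refine mem_map.2 (mem_of_superset h ?_)
  rintro v ⟨u', ⟨hu'N, hu'D⟩, rfl⟩
  show Function.invFunOn (S.f i) (S.D i) (S.f i u') ∈ N
  rw [hleft u' hu'D]
  exact hu'N

/-- The part of a chart mapped into a closed set whose intersection with `Z` is compact and
contained in the image of the chart is compact. -/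
theorem isCompact_preimage (S : Aff n) (i : S.ι) {K : Set (Fin n → ℂ)} (hK : IsCompact K)
    (hs : S.Z ∩ K ⊆ S.f i '' S.D i) : IsCompact {u | u ∈ S.D i ∧ S.f i u ∈ K} := by
  have hleft : ∀ u' ∈ S.D i, Function.invFunOn (S.f i) (S.D i) (S.f i u') = u' := fun u' hu' =>
    (S.inj i).leftInvOn_invFunOn hu'
  have hZK : IsCompact (S.Z ∩ K) := hK.inter_left S.closed
  have hcont : ContinuousOn (Function.invFunOn (S.f i) (S.D i)) (S.Z ∩ K) := by
    intro v hv
    obtain ⟨u, hu, rfl⟩ := hs hv
    exact (continuousWithinAt_inv S i hu).mono inter_subset_left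
  have himg := hZK.image_of_continuousOn hcont
  convert himg using 1
  ext u
  constructor
  · rintro ⟨hu, huK⟩
    exact ⟨S.f i u, ⟨S.mem i u hu, huK⟩, hleft u hu⟩
  · rintro ⟨v, hv, rfl⟩
    obtain ⟨u, hu, rfl⟩ := hs hv
    rw [hleft u hu]
    exact ⟨hu, hv.2⟩

/-- **[EXT]**. -/
theorem extProp (S : Aff n) : S.ExtProp := by
  classical
  intro i Φ hΦ hc hs
  set L : Set W := {u | u ∈ S.D i ∧ S.f i u ∈ tsupport Φ} with hL
  have hLc : IsCompact L := isCompact_preimage S i hc hs
  have hsupp : Function.support (S.pull i Φ) ⊆ L := by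
    intro u hu
    by_cases hD : u ∈ S.D i
    · refine ⟨hD, subset_tsupport Φ ?_⟩
      have : S.pull i Φ u = Φ (S.f i u) := by
        unfold pull
        rw [if_pos hD]
      rw [Function.mem_support, this] at hu
      exact hu
    · exfalso
      apply hu
      unfold pull
      rw [if_neg hD]
  have htsupp : tsupport (S.pull i Φ) ⊆ L := closure_minimal hsupp hLc.isClosed
  have hcs : HasCompactSupport (S.pull i Φ) := hLc.of_isClosed_subset (isClosed_tsupport _) htsupp
  refine ⟨?_, hcs, fun u hu => (htsupp hu).1⟩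
  rw [contDiff_iff_contDiffAt]
  intro u
  by_cases hu : u ∈ S.D i
  · have hf : ContDiffOn ℝ 1 (S.f i) (S.D i) := by
      have := P268.contDiffOn_of_differentiableOn (S.openD i) (S.diff i) 1
      exact_mod_cast this.restrict_scalars ℝ
    have hfu : ContDiffAt ℝ 1 (S.f i) u := hf.contDiffAt ((S.openD i).mem_nhds hu)
    have hcomp : ContDiffAt ℝ 1 (fun x => Φ (S.f i x)) u :=
      ContDiffAt.comp u ((hΦ.of_le (by exact_mod_cast le_top)).contDiffAt) hfu
    refine hcomp.congr_of_eventuallyEq ?_
    filter_upwards [(S.openD i).mem_nhds hu] with x hx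
    unfold pull
    rw [if_pos hx]
  · have hnot : u ∉ tsupport (S.pull i Φ) := fun h => hu (htsupp h).1
    have h0 : S.pull i Φ =ᶠ[𝓝 u] fun _ => 0 := by
      have hopen : (tsupport (S.pull i Φ))ᶜ ∈ 𝓝 u :=
        (isClosed_tsupport _).isOpen_compl.mem_nhds hnot
      filter_upwards [hopen] with x hx
      by_contra hne
      exact hx (subset_tsupport _ hne)
    exact contDiffAt_const.congr_of_eventuallyEq h0

end Vale.Agent.P300.H510
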